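import Vale.Agent.P213.Defs

/-!
# P213 audit: one-categories in single-set form are categories

A small category gives a `1`-category in single-set form, and every one arises in this way.
-/

namespace Vale.Agent.P213.Check

open CategoryTheory

universe u

noncomputable section

/-- An arrow with its ends. -/
structure Arr (C : Type u) [Category.{u} C] : Type u where
  src : C
  tgt : C
  hom : src ⟶ tgt

variable {C : Type u} [Category.{u} C]

/-- An identity arrow. -/
def Arr.one (x : C) : Arr C := ⟨x, x, 𝟙 x⟩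

theorem Arr.hom_eq {p q : Arr C} (h : p = q) :
    p.hom = eqToHom (congrArg Arr.src h) ≫ q.hom ≫ eqToHom (congrArg Arr.tgt h).symm := by
  subst h
  simp

open Classical in
/-- Composition of arrows along dimension `k`; only dimension zero is not trivial. -/
def arrComp {C : Type u} [Category.{u} C] (k : ℕ) (p q : Arr C) : Arr C :=
  if h : k = 0 ∧ p.tgt = q.src then ⟨p.src, q.tgt, p.hom ≫ eqToHom h.2 ≫ q.hom⟩ else p

theorem arrComp_succ (k : ℕ) (p q : Arr C) : arrComp (k + 1) p q = p :=
  dif_neg fun h => Nat.succ_ne_zero k h.1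

theorem arrComp_zero {p q : Arr C} (h : p.tgt = q.src) :
    arrComp 0 p q = ⟨p.src, q.tgt, p.hom ≫ eqToHom h ≫ q.hom⟩ :=
  dif_pos ⟨rfl, h⟩

theorem arrComp_mk {a b c : C} (f : a ⟶ b) (g : b ⟶ c) :
    arrComp 0 (⟨a, b, f⟩ : Arr C) ⟨b, c, g⟩ = ⟨a, c, f ≫ g⟩ := by
  rw [arrComp_zero (p := (⟨a, b, f⟩ : Arr C)) (q := ⟨b, c, g⟩) rfl]
  simp

open Classical in
/-- A small category as an omega-category: everything above dimension one is an identity. -/
abbrev ofCat (C : Type u) [Category.{u} C] : OmCat.{u} where
  carrier := Arr C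
  s k p := if k = 0 then Arr.one p.src else p
  t k p := if k = 0 then Arr.one p.tgt else p
  comp := arrComp
  ss i j p := by rcases i with _ | i <;> rcases j with _ | j <;> simp [Arr.one]
  st i j p := by rcases i with _ | i <;> rcases j with _ | j <;> simp [Arr.one]
  ts i j p := by rcases i with _ | i <;> rcases j with _ | j <;> simp [Arr.one]
  tt i j p := by rcases i with _ | i <;> rcases j with _ | j <;> simp [Arr.one]
  s_comp i n p q e := by
    obtain ⟨a, b, f⟩ := p
    obtain ⟨b', c, g⟩ := q
    rcases n with _ | n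
    · simp only [if_true, Arr.one, Arr.mk.injEq] at e
      obtain ⟨rfl, -⟩ := e
      rw [arrComp_mk]
      rcases i with _ | i
      · simp [Arr.one]
      · simp [arrComp_mk]
    · simp only [Nat.succ_ne_zero, if_false] at e
      cases e
      rcases i with _ | i <;> simp [arrComp_succ]
  t_comp i n p q e := by
    obtain ⟨a, b, f⟩ := p
    obtain ⟨b', c, g⟩ := q
    rcases n with _ | n
    · simp only [if_true, Arr.one, Arr.mk.injEq] at e
      obtain ⟨rfl, -⟩ := e
      rw [arrComp_mk]
      rcases i with _ | i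
      · simp [Arr.one]
      · simp [arrComp_mk]
    · simp only [Nat.succ_ne_zero, if_false] at e
      cases e
      rcases i with _ | i <;> simp [arrComp_succ]
  id_comp n p := by
    obtain ⟨a, b, f⟩ := p
    rcases n with _ | n
    · simp [Arr.one, arrComp_mk]
    · simp [arrComp_succ]
  comp_id n p := by
    obtain ⟨a, b, f⟩ := p
    rcases n with _ | n
    · simp [Arr.one, arrComp_mk]
    · simp [arrComp_succ]
  assoc n p q r e1 e2 := by
    obtain ⟨a, b, f⟩ := p
    obtain ⟨b', c, g⟩ := q
    obtain ⟨c', d, h⟩ := r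
    rcases n with _ | n
    · simp only [if_true, Arr.one, Arr.mk.injEq] at e1 e2
      obtain ⟨rfl, -⟩ := e1
      obtain ⟨rfl, -⟩ := e2
      simp [arrComp_mk]
    · simp [arrComp_succ]
  interchange m n p p' q q' hmn e1 e2 e3 := by
    obtain ⟨n, rfl⟩ : ∃ k, n = k + 1 := ⟨n - 1, by omega⟩
    simp only [Nat.succ_ne_zero, if_false] at e1 e2
    subst e1
    subst e2
    simp [arrComp_succ]
  bounded p := ⟨1, by simp⟩

theorem ofCat_s_succ (k : ℕ) (p : Arr C) : (ofCat C).s (k + 1) p = p := rfl

theorem ofCat_t_succ (k : ℕ) (p : Arr C) : (ofCat C).t (k + 1) p = p := rfl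

theorem ofCat_s_zero (p : Arr C) : (ofCat C).s 0 p = Arr.one p.src := rfl

theorem ofCat_t_zero (p : Arr C) : (ofCat C).t 0 p = Arr.one p.tgt := rfl

theorem ofCat_comp_zero {p q : Arr C} (h : p.tgt = q.src) :
    (ofCat C).comp 0 p q = ⟨p.src, q.tgt, p.hom ≫ eqToHom h ≫ q.hom⟩ :=
  arrComp_zero h

theorem ofCat_comp_succ (k : ℕ) (p q : Arr C) : (ofCat C).comp (k + 1) p q = p :=
  arrComp_succ k p q

theorem isNCat_ofCat (C : Type u) [Category.{u} C] : IsNCat 1 (ofCat C) := fun k hk p => by
  obtain ⟨k, rfl⟩ : ∃ j, k = j + 1 := ⟨k - 1, by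
    have : 1 ≤ k := by exact_mod_cast hk
    omega⟩
  rfl

/-- The category of a small category as an object of `NCat 1`. -/
abbrev ofCat₁ (C : Type u) [Category.{u} C] : NCat.{u} 1 := ⟨ofCat C, isNCat_ofCat C⟩

/-- A functor of categories as a strict functor. -/
def ofCatMap {D : Type u} [Category.{u} D] (F : C ⥤ D) : Fun (ofCat C) (ofCat D) where
  toFun p := ⟨F.obj p.src, F.obj p.tgt, F.map p.hom⟩
  map_s n p := by
    rcases n with _ | n
    · simp [ofCat_s_zero, Arr.one]
    · rfl
  map_t n p := by
    rcases n with _ | n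
    · simp [ofCat_t_zero, Arr.one]
    · rfl
  map_comp n p q e := by
    rcases n with _ | n
    · obtain ⟨a, b, f⟩ := p
      obtain ⟨b', c, g⟩ := q
      obtain rfl : b = b' := congrArg Arr.src e
      rw [ofCat_comp_zero (show b = b from rfl), ofCat_comp_zero (show F.obj b = F.obj b from rfl)]
      simp
    · rw [ofCat_comp_succ, ofCat_comp_succ]

/-- The objects of a `1`-category. -/
structure Obj (X : NCat.{u} 1) : Type u where
  val : X.obj.carrier
  prop : X.obj.s 0 val = val

variable (X : NCat.{u} 1)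

theorem s_pos {k : ℕ} (hk : k ≠ 0) (x : X.obj.carrier) : X.obj.s k x = x :=
  X.property k (by exact_mod_cast Nat.one_le_iff_ne_zero.2 hk) x

theorem t_pos {k : ℕ} (hk : k ≠ 0) (x : X.obj.carrier) : X.obj.t k x = x := by
  conv_lhs => rw [← s_pos X hk x, X.obj.ts, if_neg (lt_irrefl k), s_pos X hk x]

theorem Obj.t_val {X : NCat.{u} 1} (o : Obj X) : X.obj.t 0 o.val = o.val := by
  conv_lhs => rw [← o.prop, X.obj.ts, if_neg (lt_irrefl 0), o.prop]

instance : Category.{u} (Obj X) where
  Hom a b := {f : X.obj.carrier // X.obj.s 0 f = a.val ∧ X.obj.t 0 f = b.val}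
  id a := ⟨a.val, a.prop, a.t_val⟩
  comp f g := ⟨X.obj.comp 0 f.1 g.1,
    by rw [X.obj.s_comp 0 0 _ _ (f.2.2.trans g.2.1.symm), if_pos le_rfl, f.2.1],
    by rw [X.obj.t_comp 0 0 _ _ (f.2.2.trans g.2.1.symm), if_pos le_rfl, g.2.2]⟩
  id_comp {a b} f := Subtype.ext (by
    show X.obj.comp 0 a.val f.1 = f.1
    exact (congrArg (fun z => X.obj.comp 0 z f.1) f.2.1.symm).trans (X.obj.id_comp 0 f.1))
  comp_id {a b} f := Subtype.ext (by
    show X.obj.comp 0 f.1 b.val = f.1
    exact (congrArg (X.obj.comp 0 f.1) f.2.2.symm).trans (X.obj.comp_id 0 f.1))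
  assoc f g h := Subtype.ext (X.obj.assoc 0 _ _ _ (f.2.2.trans g.2.1.symm) (g.2.2.trans h.2.1.symm))

/-- The source object. -/
def srcObj (x : X.obj.carrier) : Obj X := ⟨X.obj.s 0 x, by rw [X.obj.ss]; rfl⟩

/-- The target object. -/
def tgtObj (x : X.obj.carrier) : Obj X := ⟨X.obj.t 0 x, by rw [X.obj.st, if_neg (lt_irrefl 0)]⟩

/-- The arrow of a cell. -/
def toArr (x : X.obj.carrier) : Arr (Obj X) := ⟨srcObj X x, tgtObj X x, ⟨x, rfl, rfl⟩⟩

theorem toArr_val (p : Arr (Obj X)) : toArr X p.hom.1 = p := by
  obtain ⟨⟨a, ha⟩, ⟨b, hb⟩, ⟨f, hf1, hf2⟩⟩ := p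
  dsimp only at hf1 hf2 ⊢
  subst hf1
  subst hf2
  rfl

theorem toArr_one (o : Obj X) : toArr X o.val = Arr.one o := (toArr_val X (Arr.one o))

/-- Every `1`-category is the omega-category of a small category. -/
def isoOfCat : X ≅ ofCat₁ (Obj X) where
  hom := ObjectProperty.homMk
    { toFun := toArr X
      map_s := fun n x => by
        rcases n with _ | n
        · exact toArr_one X (srcObj X x)
        · exact congrArg (toArr X) (s_pos X n.succ_ne_zero x)
      map_t := fun n x => by
        rcases n with _ | n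
        · exact toArr_one X (tgtObj X x)
        · exact congrArg (toArr X) (t_pos X n.succ_ne_zero x)
      map_comp := fun n x y e => by
        rcases n with _ | n
        · have h : tgtObj X x = srcObj X y := by simp [tgtObj, srcObj, e]
          show toArr X (X.obj.comp 0 x y) = (ofCat (Obj X)).comp 0 (toArr X x) (toArr X y)
          rw [ofCat_comp_zero (p := toArr X x) (q := toArr X y) h]
          have key : ∀ (a b b' c : Obj X) (f : a ⟶ b) (g : b' ⟶ c) (h : b = b'),
              (⟨a, c, f ≫ eqToHom h ≫ g⟩ : Arr (Obj X)) = toArr X (X.obj.comp 0 f.1 g.1) := by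
            intro a b b' c f g h
            subst h
            rw [eqToHom_refl, Category.id_comp]
            exact (toArr_val X ⟨a, c, f ≫ g⟩).symm
          exact (key _ _ _ _ (toArr X x).hom (toArr X y).hom h).symm
        · show toArr X (X.obj.comp (n + 1) x y) =
            (ofCat (Obj X)).comp (n + 1) (toArr X x) (toArr X y)
          have e' : x = y := by rwa [t_pos X n.succ_ne_zero, s_pos X n.succ_ne_zero] at e
          rw [ofCat_comp_succ, ← e']
          have := X.obj.id_comp (n + 1) x
          rw [s_pos X n.succ_ne_zero] at this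
          rw [this] }
  inv := ObjectProperty.homMk
    { toFun := fun p => p.hom.1
      map_s := fun n p => by
        rcases n with _ | n
        · exact p.hom.2.1.symm
        · exact (s_pos X n.succ_ne_zero _).symm
      map_t := fun n p => by
        rcases n with _ | n
        · exact p.hom.2.2.symm
        · exact (t_pos X n.succ_ne_zero _).symm
      map_comp := fun n p q e => by
        rcases n with _ | n
        · obtain ⟨a, b, f⟩ := p
          obtain ⟨b', c, g⟩ := q
          obtain rfl : b = b' := congrArg Arr.src e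
          show ((ofCat (Obj X)).comp 0 ⟨a, b, f⟩ ⟨b, c, g⟩).hom.1 = _
          rw [ofCat_comp_zero (show b = b from rfl)]
          show (f ≫ 𝟙 b ≫ g).1 = _
          rw [Category.id_comp]
          rfl
        · have e' : p = q := e
          show ((ofCat (Obj X)).comp (n + 1) p q).hom.1 = _
          rw [ofCat_comp_succ, ← e']
          have := X.obj.id_comp (n + 1) p.hom.1
          rw [s_pos X n.succ_ne_zero] at this
          exact this.symm }
  hom_inv_id := ObjectProperty.hom_ext _ (Fun.ext fun _ => rfl)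
  inv_hom_id := ObjectProperty.hom_ext _ (Fun.ext (toArr_val X))

end

end Vale.Agent.P213.Check
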