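import Vale.Agent.P213.Check.Nerve

/-!
# P213 audit: `1`-categories are small categories, compatibly with the nerves
-/

namespace Vale.Agent.P213.Check

open CategoryTheory

universe u

noncomputable section

/-- Small categories as `1`-categories. -/
def ofCatFunctor : Cat.{u, u} ⥤ NCat.{u} 1 where
  obj C := ofCat₁ C
  map F := ObjectProperty.homMk (ofCatMap F.toFunctor)

variable {C D : Type u} [Category.{u} C] [Category.{u} D]

theorem toFun_one (G : Fun (ofCat C) (ofCat D)) (x : C) :
    G.toFun (Arr.one x) = Arr.one (G.toFun (Arr.one x)).src :=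
  G.map_s 0 (Arr.one x)

theorem toFun_src (G : Fun (ofCat C) (ofCat D)) {x y : C} (f : x ⟶ y) :
    (G.toFun ⟨x, y, f⟩).src = (G.toFun (Arr.one x)).src :=
  (congrArg Arr.src (G.map_s 0 ⟨x, y, f⟩)).symm

theorem toFun_tgt (G : Fun (ofCat C) (ofCat D)) {x y : C} (f : x ⟶ y) :
    (G.toFun ⟨x, y, f⟩).tgt = (G.toFun (Arr.one y)).src :=
  (congrArg Arr.src (G.map_t 0 ⟨x, y, f⟩)).symm

/-- The functor of a strict functor between `1`-categories. -/
def toFunctor (G : Fun (ofCat C) (ofCat D)) : C ⥤ D where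
  obj x := (G.toFun (Arr.one x)).src
  map f := castHom (G.toFun ⟨_, _, f⟩) (toFun_src G f) (toFun_tgt G f)
  map_id x := castHom_one (toFun_one G x) _ _
  map_comp {x y z} f g := by
    refine castHom_comp ?_ _ _ _ _ _ _
    rw [← G.map_comp 0 ⟨x, y, f⟩ ⟨y, z, g⟩ rfl]
    exact congrArg G.toFun (arrComp_mk f g).symm

theorem ofCatMap_toFunctor (G : Fun (ofCat C) (ofCat D)) : ofCatMap (toFunctor G) = G :=
  Fun.ext fun p => castHom_arr _ (toFun_src G p.hom) (toFun_tgt G p.hom)

theorem ofCatMap_injective : Function.Injective (ofCatMap : (C ⥤ D) → _) := by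
  intro F F' h
  have h' : ∀ p : Arr C, (ofCatMap F).toFun p = (ofCatMap F').toFun p := fun p => by rw [h]
  exact CategoryTheory.Functor.ext (fun x => congrArg Arr.src (h' (Arr.one x)))
    fun x y f => Arr.hom_eq (h' ⟨x, y, f⟩)

instance : ofCatFunctor.{u}.Faithful where
  map_injective h :=
    Cat.Hom.ext (ofCatMap_injective (congrArg InducedCategory.Hom.hom h))

instance : ofCatFunctor.{u}.Full where
  map_surjective G :=
    ⟨(toFunctor G.hom).toCatHom, ObjectProperty.hom_ext _ (ofCatMap_toFunctor G.hom)⟩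

instance : ofCatFunctor.{u}.EssSurj where
  mem_essImage X := ⟨Cat.of (Obj X), ⟨(isoOfCat X).symm⟩⟩

instance : ofCatFunctor.{u}.IsEquivalence where

/-- `NCat 1` is the category of small categories and `N₁` is the ordinary nerve. -/
def nerveOneIso : ofCatFunctor.{u} ⋙ nerveN 1 ≅ nerveFunctor :=
  (NatIso.ofComponents (fun C : Cat.{u, u} => nerveIso C)
    fun {_ _} F => nerveIso_natural F.toFunctor :
      nerveFunctor ≅ ofCatFunctor.{u} ⋙ nerveN 1).symm

end

end Vale.Agent.P213.Check
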