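import Vale.Agent.P213.Spec

/-!
# P213: the objects with fibrant nerve are the fibrant objects (helper5)

In the transferred structure an `n`-category is fibrant exactly when `Ex² N_n` of it is a Kan
complex, which is the hypothesis on objects in the last clause of `Conjecture`.
-/

universe u

namespace Vale.Agent.P213.Check

open CategoryTheory CategoryTheory.Limits HomotopicalAlgebra SSet.modelCategoryQuillen

noncomputable section

/-- `X` is fibrant for `F n` iff `Ex² N_n X` is a Kan complex. -/
theorem fibrant_iff_kanComplex (n : ℕ∞) (hA : Spec.NerveAdjoint.{u} n) (X T : NCat.{u} n)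
    (hT : IsTerminal T) (p : X ⟶ T) :
    F n p ↔ SSet.KanComplex (SSet.ex.obj (SSet.ex.obj ((nerveN n).obj X))) := by
  have : (nerveN.{u} n).IsRightAdjoint := hA
  have hT' : IsTerminal (SSet.ex.obj (SSet.ex.obj ((nerveN n).obj T))) :=
    IsTerminal.isTerminalObj SSet.ex _ (IsTerminal.isTerminalObj SSet.ex _
      (IsTerminal.isTerminalObj (nerveN n) _ hT))
  show J.rlp (SSet.ex.map (SSet.ex.map ((nerveN n).map p))) ↔
    IsFibrant (SSet.ex.obj (SSet.ex.obj ((nerveN n).obj X)))
  rw [← SSet.modelCategoryQuillen.fibration_iff, isFibrant_iff, HomotopicalAlgebra.fibration_iff,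
    HomotopicalAlgebra.fibration_iff]
  refine (fibrations SSet.{u}).arrow_mk_iso_iff (Arrow.isoMk (Iso.refl _)
    (hT'.uniqueUpToIso terminalIsTerminal) (terminal.hom_ext _ _))

end

end Vale.Agent.P213.Check
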