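import Vale.Agent.P213.Omega.Interval
import Vale.Agent.P213.Cells.Basic
import Vale.Agent.P213.Check.Category

/-!
# P213 audit: the Street nerve in dimension one is the ordinary nerve

For a small category the Street nerve of the associated `1`-category is Mathlib's nerve, naturally
in the category; as every `1`-category comes from a category, `N₁` is the ordinary nerve.
-/

namespace Vale.Agent.P213.Check

open CategoryTheory Opposite Simplicial

universe u

noncomputable section

variable {C : Type u} [Category.{u} C] {a b : ℕ}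

/-- The source vertex of a cell. -/
abbrev sv (p : (simplexADC a).Cell) : Fin (a + 1) := Cells.srcV interval p

/-- The target vertex of a cell. -/
abbrev tv (p : (simplexADC a).Cell) : Fin (a + 1) := Cells.tgtV interval p

theorem sv_eq {p : (simplexADC a).Cell} {i : Fin (a + 1)}
    (h : ADC.Cell.face false 0 p = vert i) : sv p = i :=
  Cells.vert_injective ((Cells.s_zero interval p).symm.trans h)

theorem tv_eq {p : (simplexADC a).Cell} {i : Fin (a + 1)}
    (h : ADC.Cell.face true 0 p = vert i) : tv p = i :=
  Cells.vert_injective ((Cells.t_zero interval p).symm.trans h)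

theorem sv_le_tv (p : (simplexADC a).Cell) : sv p ≤ tv p := Cells.srcV_le_tgtV interval p

/-! ### From functors to simplices -/

/-- An arrow in the image of a sequence. -/
def seqArr (F : Fin (a + 1) ⥤ C) {i j : Fin (a + 1)} (h : i ≤ j) : Arr C :=
  ⟨F.obj i, F.obj j, F.map (homOfLE h)⟩

theorem seqArr_congr (F : Fin (a + 1) ⥤ C) {i j i' j' : Fin (a + 1)} (hi : i = i') (hj : j = j')
    (h : i ≤ j) (h' : i' ≤ j') : seqArr F h = seqArr F h' := by
  subst hi
  subst hj
  rfl

theorem seqArr_refl (F : Fin (a + 1) ⥤ C) (i : Fin (a + 1)) :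
    seqArr F (le_refl i) = Arr.one (F.obj i) := by
  simp [seqArr, Arr.one]

theorem seqArr_comp (F : Fin (a + 1) ⥤ C) {i j j' k : Fin (a + 1)} (hj : j = j') (h : i ≤ j)
    (h' : j' ≤ k) (h'' : i ≤ k) :
    (ofCat C).comp 0 (seqArr F h) (seqArr F h') = seqArr F h'' := by
  subst hj
  rw [ofCat_comp_zero (p := seqArr F h) (q := seqArr F h') rfl]
  simp [seqArr, ← F.map_comp, homOfLE_comp]

theorem sv_face (e : Bool) (k : ℕ) (p : (simplexADC a).Cell) :
    sv (ADC.Cell.face e (k + 1) p) = sv p := by
  refine sv_eq ?_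
  rw [ADC.Cell.face_face, if_pos (Nat.succ_pos k)]
  exact Cells.s_zero interval p

theorem tv_face (e : Bool) (k : ℕ) (p : (simplexADC a).Cell) :
    tv (ADC.Cell.face e (k + 1) p) = tv p := by
  refine tv_eq ?_
  rw [ADC.Cell.face_face, if_pos (Nat.succ_pos k)]
  exact Cells.t_zero interval p

theorem sv_comp {n : ℕ} {p q : (simplexADC a).Cell}
    (h : (oriental a).t n p = (oriental a).s n q) : sv ((oriental a).comp n p q) = sv p := by
  refine sv_eq (((oriental a).s_comp 0 n p q h).trans ?_)
  rw [if_pos (Nat.zero_le n)]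
  exact Cells.s_zero interval p

theorem tv_comp {n : ℕ} {p q : (simplexADC a).Cell}
    (h : (oriental a).t n p = (oriental a).s n q) : tv ((oriental a).comp n p q) = tv q := by
  refine tv_eq (((oriental a).t_comp 0 n p q h).trans ?_)
  rw [if_pos (Nat.zero_le n)]
  exact Cells.t_zero interval q

/-- A sequence of arrows as a simplex of the Street nerve. -/
def ofSeq (F : Fin (a + 1) ⥤ C) : Fun (oriental a) (ofCat C) where
  toFun p := seqArr F (sv_le_tv p)
  map_s n p := by
    rcases n with _ | n
    · have h0 : (oriental a).s 0 p = vert (sv p) := Cells.s_zero interval p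
      rw [h0]
      refine (seqArr_congr F (Cells.srcV_vert interval _) (Cells.tgtV_vert interval _) _ le_rfl).trans ?_
      exact seqArr_refl F _
    · exact seqArr_congr F (sv_face false n p) (tv_face false n p) _ _
  map_t n p := by
    rcases n with _ | n
    · have h0 : (oriental a).t 0 p = vert (tv p) := Cells.t_zero interval p
      rw [h0]
      refine (seqArr_congr F (Cells.srcV_vert interval _) (Cells.tgtV_vert interval _) _ le_rfl).trans ?_
      exact seqArr_refl F _
    · exact seqArr_congr F (sv_face true n p) (tv_face true n p) _ _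
  map_comp n p q h := by
    rcases n with _ | n
    · have hj : tv p = sv q := Cells.vert_injective
        ((Cells.t_zero interval p).symm.trans (h.trans (Cells.s_zero interval q)))
      have hle : sv p ≤ tv q := (sv_le_tv p).trans ((le_of_eq hj).trans (sv_le_tv q))
      rw [seqArr_comp F hj (sv_le_tv p) (sv_le_tv q) hle]
      exact seqArr_congr F (sv_comp h) (tv_comp h) _ _
    · rw [ofCat_comp_succ]
      refine seqArr_congr F (sv_comp h) ((tv_comp h).trans ?_) _ _
      exact ((tv_face true n p).symm.trans ((congrArg tv h).trans (tv_face false n q))).symm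

theorem ofSeq_natural (F : Fin (a + 1) ⥤ C) (θ : Fin (b + 1) →o Fin (a + 1)) :
    (orientalMap θ).comp (ofSeq F) = ofSeq (θ.monotone.functor ⋙ F) := by
  refine Fun.ext fun p => ?_
  show seqArr F (sv_le_tv _) = seqArr (θ.monotone.functor ⋙ F) (sv_le_tv p)
  exact seqArr_congr F (Cells.srcV_map interval θ p) (Cells.tgtV_map interval θ p) _
    (θ.monotone (sv_le_tv p))

/-! ### Edges -/

/-- The monotone map `0, 1 ↦ i, j`. -/
def pairMap {i j : Fin (a + 1)} (h : i ≤ j) : Fin (1 + 1) →o Fin (a + 1) :=
  ⟨fun x => if x = 0 then i else j, fun x y hxy => by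
    fin_cases x <;> fin_cases y <;> simp_all⟩

/-- The edge from `i` to `j`, an identity if they agree. -/
def eCell {i j : Fin (a + 1)} (h : i ≤ j) : (simplexADC a).Cell :=
  (orientalMap (pairMap h)).toFun Cells.edge

theorem eCell_x_zero {i j : Fin (a + 1)} (h : i ≤ j) (e : Bool) :
    (eCell h).x 0 e =
      Finsupp.single ⟨{if e then j else i}, Finset.singleton_nonempty _⟩ 1 := by
  show imageChain (pairMap h) (Finsupp.single ⟨{if e then 1 else 0}, _⟩ 1) = _
  rw [imageChain_single, one_smul, imageBasis, if_pos (by simp)]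
  refine congrArg (Finsupp.single · 1) (Subtype.ext ?_)
  cases e <;> exact (Finset.image_singleton _ _).trans rfl

theorem eCell_x_one {i j : Fin (a + 1)} (h : i < j) (e : Bool) :
    (eCell h.le).x 1 e = Finsupp.single ⟨{i, j}, Finset.insert_nonempty _ _⟩ 1 := by
  show imageChain (pairMap h.le) (Finsupp.single ⟨{0, 1}, Finset.insert_nonempty _ _⟩ 1) = _
  rw [imageChain_single, one_smul]
  have hi : ({0, 1} : Finset (Fin (1 + 1))).image (pairMap h.le) = {i, j} := by
    rw [Finset.image_insert, Finset.image_singleton]; rfl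
  rw [imageBasis, if_pos (by rw [hi, Finset.card_pair h.ne]; rfl)]
  exact congrArg (Finsupp.single · 1) (Subtype.ext hi)

theorem eCell_x_high {i j : Fin (a + 1)} (h : i ≤ j) (k : ℕ) (e : Bool) :
    (eCell h).x (k + 2) e = 0 := imageChain_zero (pairMap h)

theorem eCell_x_one_self (i : Fin (a + 1)) (e : Bool) : (eCell (le_refl i)).x 1 e = 0 := by
  show imageChain (pairMap (le_refl i)) (Finsupp.single ⟨{0, 1}, Finset.insert_nonempty _ _⟩ 1) = _
  rw [imageChain_single, one_smul, imageBasis, if_neg]
  have hi : ({0, 1} : Finset (Fin (1 + 1))).image (pairMap (le_refl i)) = {i} := by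
    rw [Finset.image_insert, Finset.image_singleton]
    show ({i, i} : Finset (Fin (a + 1))) = {i}
    simp
  rw [hi]
  simp

theorem eCell_self (i : Fin (a + 1)) : eCell (le_refl i) = vert i := by
  refine ADC.Cell.ext fun k e => ?_
  rcases k with _ | _ | k
  · rw [eCell_x_zero, Cells.vert_x, if_pos rfl]
    cases e <;> rfl
  · rw [eCell_x_one_self, Cells.vert_x, if_neg Nat.one_ne_zero]
  · rw [eCell_x_high, Cells.vert_x, if_neg (Nat.succ_ne_zero _)]

theorem eCell_s_zero {i j : Fin (a + 1)} (h : i ≤ j) :
    ADC.Cell.face false 0 (eCell h) = vert i :=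
  Cells.face_zero_eq_vert _ _ _ (eCell_x_zero h false)

theorem eCell_t_zero {i j : Fin (a + 1)} (h : i ≤ j) :
    ADC.Cell.face true 0 (eCell h) = vert j :=
  Cells.face_zero_eq_vert _ _ _ (eCell_x_zero h true)

theorem eCell_map (θ : Fin (b + 1) →o Fin (a + 1)) {i j : Fin (b + 1)} (h : i ≤ j) :
    (orientalMap θ).toFun (eCell h) = eCell (θ.monotone h) := by
  show ((orientalMap (pairMap h)).comp (orientalMap θ)).toFun Cells.edge = _
  rw [← orientalMap_comp]
  refine congrArg (fun f => (orientalMap f).toFun Cells.edge) (OrderHom.ext _ _ (funext fun x => ?_))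
  exact apply_ite θ _ _ _

/-! ### Simplices are determined by the edges -/

theorem toFun_s_one (G : Fun (oriental a) (ofCat C)) (p : (simplexADC a).Cell) :
    G.toFun (ADC.Cell.face false 1 p) = G.toFun p := (G.map_s 1 p).trans (ofCat_s_succ 0 _)

theorem toFun_t_one (G : Fun (oriental a) (ofCat C)) (p : (simplexADC a).Cell) :
    G.toFun (ADC.Cell.face true 1 p) = G.toFun p := (G.map_t 1 p).trans (ofCat_t_succ 0 _)

/-- Induction over paths: a cell of dimension one is a composite of edges. -/
theorem eq_of_edges (G G' : Fun (oriental a) (ofCat C))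
    (h : ∀ (i j : Fin (a + 1)) (hij : i ≤ j), G.toFun (eCell hij) = G'.toFun (eCell hij))
    (N : ℕ) : ∀ q : (simplexADC a).Cell, (∀ k e, 2 ≤ k → q.x k e = 0) →
      q.x 1 true = q.x 1 false → (q.x 1 false).sum (fun _ r => r) ≤ N →
      G.toFun q = G'.toFun q := by
  classical
  induction N with
  | zero =>
    intro q hhigh h1 hN
    have hc : q.x 1 false = 0 := by
      ext s
      by_contra hs
      have := Finset.single_le_sum (f := fun t => q.x 1 false t) (fun _ _ => Nat.zero_le _)
        (Finsupp.mem_support_iff.2 hs)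
      rw [Finsupp.sum] at hN
      simp only [Finsupp.coe_zero, Pi.zero_apply] at hs
      omega
    obtain ⟨i, j, hi, hj, -⟩ := interval a q
    have hij : q.x 0 true = q.x 0 false := by
      have hb := q.boundary 0 false
      rw [hc, ADC.bd_zero, eq_comm, sub_eq_zero] at hb
      exact Finsupp.mapRange_injective _ rfl Nat.cast_injective hb
    have hq : q = eCell (le_refl i) := by
      rw [eCell_self]
      refine ADC.Cell.ext fun k e => ?_
      rw [Cells.vert_x]
      rcases k with _ | _ | k
      · cases e
        · exact hi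
        · exact hij.trans hi
      · cases e
        · exact hc
        · exact h1.trans hc
      · exact hhigh _ e (by omega)
    rw [hq, h]
  | succ N ih =>
    intro q hhigh h1 hN
    obtain ⟨i, j, hi, hj, hij, hint⟩ := interval a q
    by_cases hle : (q.x 1 false).sum (fun _ r => r) ≤ N
    · exact ih q hhigh h1 hle
    have hc : q.x 1 false ≠ 0 := fun e0 => hle (by rw [e0, Finsupp.sum_zero_index]; omega)
    have hcard : ∀ s, q.x 1 false s ≠ 0 → s.1.card = 2 := fun s hs => by
      have h' : s.1.card - 1 = 1 := q.deg_eq 1 false s hs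
      omega
    have hne : i ≠ j := by
      rintro rfl
      refine hc (Finsupp.ext fun s => ?_)
      by_contra hs
      obtain ⟨x, y, hxy, hs2⟩ := Finset.card_eq_two.1 (hcard s hs)
      have hx := hint 1 false s hs x (by simp [hs2])
      have hy := hint 1 false s hs y (by simp [hs2])
      exact hxy ((le_antisymm hx.2 hx.1).trans (le_antisymm hy.2 hy.1).symm)
    let v : Fin (a + 1) → (simplexADC a).B := fun x => ⟨{x}, Finset.singleton_nonempty x⟩
    have hvne : v j ≠ v i := fun e => hne
      (Finset.singleton_injective (congrArg Subtype.val e)).symm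
    have hneg : (simplexADC a).bd (q.x 1 false) (v i) = -1 := by
      rw [q.boundary 0 false, hi, hj]
      simp [ADC.toZ, v, hne.symm]
    obtain ⟨s, hs, hds⟩ : ∃ s, q.x 1 false s ≠ 0 ∧ (simplexADC a).d s (v i) < 0 := by
      by_contra hno
      push Not at hno
      have : 0 ≤ (simplexADC a).bd (q.x 1 false) (v i) := by
        rw [ADC.bd, Finsupp.sum, Finsupp.finsetSum_apply]
        refine Finset.sum_nonneg fun s hs => ?_
        rw [Finsupp.smul_apply, nsmul_eq_mul]
        exact mul_nonneg (Nat.cast_nonneg _) (hno s (Finsupp.mem_support_iff.1 hs))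
      omega
    obtain ⟨x, hxi, hsx, hd⟩ := Interval.of_d_ne_zero hds.ne
    have hix : i < x := by
      rw [hd] at hds
      by_contra hxle
      rw [Finset.filter_singleton, if_neg (by simpa [v] using hxle)] at hds
      simp at hds
    have hs_eq : s = ⟨{i, x}, Finset.insert_nonempty _ _⟩ :=
      Subtype.ext (hsx.trans (Finset.pair_comm x i))
    have hle1 : Finsupp.single s 1 ≤ q.x 1 false := by
      intro t
      rw [Finsupp.single_apply]
      split_ifs with ht
      · subst ht; omega
      · exact Nat.zero_le _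
    have hsplit : Finsupp.single s 1 + (q.x 1 false - Finsupp.single s 1) = q.x 1 false :=
      add_tsub_cancel_of_le hle1
    set c' := q.x 1 false - Finsupp.single s 1 with hc'
    let q' : (simplexADC a).Cell :=
      { x := fun k e => if k = 0 then Finsupp.single (v (if e then j else x)) 1
          else if k = 1 then c' else 0
        deg_eq := fun k e t ht => by
          rcases k with _ | _ | k
          · rw [if_pos rfl] at ht
            obtain ⟨rfl, -⟩ := Finsupp.single_apply_ne_zero.1 ht
            rfl
          · refine q.deg_eq 1 false t fun h0' => ht ?_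
            show c' t = 0
            rw [hc', Finsupp.tsub_apply, h0', Nat.zero_sub]
          · simp at ht
        aug := fun e => by simp
        boundary := fun k e => by
          rcases k with _ | _ | k
          · show (simplexADC a).bd c' = (simplexADC a).toZ (Finsupp.single (v j) 1) -
              (simplexADC a).toZ (Finsupp.single (v x) 1)
            have hb := q.boundary 0 false
            rw [hi, hj, ← hsplit, ADC.bd_add] at hb
            have hbs := (eCell hix.le).boundary 0 false
            rw [eCell_x_zero, eCell_x_zero, eCell_x_one hix, ← hs_eq] at hbs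
            simp only [if_true, Bool.false_eq_true, if_false] at hbs
            rw [hbs] at hb
            refine add_left_cancel (hb.trans ?_)
            abel
          · simp [ADC.bd_zero]
          · simp [ADC.bd_zero]
        bounded := ⟨1, fun k e hk => by simp [show k ≠ 0 by omega, show k ≠ 1 by omega]⟩ }
    have hcomp : (oriental a).t 0 (eCell hix.le) = (oriental a).s 0 q' :=
      ADC.Cell.composable_iff.2 ⟨eCell_x_zero hix.le true, fun k e hk => by omega⟩
    have hq : q = (oriental a).comp 0 (eCell hix.le) q' := by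
      refine ADC.Cell.ext fun k e => ?_
      refine Eq.trans ?_ (ADC.Cell.comp_x hcomp k e).symm
      rcases k with _ | _ | k
      · cases e
        · exact hi.trans (eCell_x_zero hix.le false).symm
        · exact hj
      · show q.x 1 e = (eCell hix.le).x 1 e + c'
        rw [eCell_x_one hix, ← hs_eq, hsplit]
        cases e
        · rfl
        · exact h1
      · show q.x (k + 2) e = (eCell hix.le).x (k + 2) e + 0
        rw [eCell_x_high, add_zero]
        exact hhigh _ e (by omega)
    have hsum : (q'.x 1 false).sum (fun _ r => r) ≤ N := by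
      show c'.sum (fun _ r => r) ≤ N
      rw [← hsplit, Finsupp.sum_add_index' (fun _ => rfl) (fun _ _ _ => rfl),
        Finsupp.sum_single_index rfl] at hN
      omega
    have hq' := ih q' (fun k e hk => by simp [q', show k ≠ 0 by omega, show k ≠ 1 by omega]) rfl hsum
    rw [hq, G.map_comp 0 _ _ hcomp, G'.map_comp 0 _ _ hcomp, h, hq']

/-- Two simplices with the same edges are equal. -/
theorem ext_edges (G G' : Fun (oriental a) (ofCat C))
    (h : ∀ (i j : Fin (a + 1)) (hij : i ≤ j), G.toFun (eCell hij) = G'.toFun (eCell hij)) :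
    G = G' := by
  refine Fun.ext fun p => ?_
  rw [← toFun_s_one G p, ← toFun_s_one G' p]
  refine eq_of_edges G G' h (((ADC.Cell.face false 1 p).x 1 false).sum fun _ r => r) _ ?_ ?_ le_rfl
  · intro k e hk
    rw [ADC.Cell.face_x, if_neg (by omega), if_neg (by omega)]
  · rfl

/-! ### From simplices to functors -/

theorem toZ_single_one (s : (simplexADC a).B) :
    (simplexADC a).toZ (Finsupp.single s 1) = Finsupp.single s (1 : ℤ) := by simp [ADC.toZ]

theorem bd_pair {i j : Fin (a + 1)} (h : i < j) :
    (simplexADC a).bd (Finsupp.single ⟨{i, j}, Finset.insert_nonempty _ _⟩ 1) =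
      (simplexADC a).toZ (Finsupp.single ⟨{j}, Finset.singleton_nonempty j⟩ 1) -
        (simplexADC a).toZ (Finsupp.single ⟨{i}, Finset.singleton_nonempty i⟩ 1) := by
  have hb := (eCell h.le).boundary 0 false
  rw [eCell_x_zero, eCell_x_zero, eCell_x_one h] at hb
  simpa using hb

theorem bd_triple : (simplexADC 2).bd
    (Finsupp.single ⟨{0, 1, 2}, Finset.insert_nonempty _ _⟩ 1) =
      (simplexADC 2).toZ (Finsupp.single ⟨{0, 1}, Finset.insert_nonempty _ _⟩ 1 +
          Finsupp.single ⟨{1, 2}, Finset.insert_nonempty _ _⟩ 1) -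
        (simplexADC 2).toZ (Finsupp.single ⟨{0, 2}, Finset.insert_nonempty _ _⟩ 1) := by
  have he0 : ({0, 1, 2} : Finset (Fin (2 + 1))).erase 0 = {1, 2} := by decide
  have he1 : ({0, 1, 2} : Finset (Fin (2 + 1))).erase 1 = {0, 2} := by decide
  have he2 : ({0, 1, 2} : Finset (Fin (2 + 1))).erase 2 = {0, 1} := by decide
  have c0 : (({0, 1, 2} : Finset (Fin (2 + 1))).filter (· < 0)).card = 0 := by decide
  have c1 : (({0, 1, 2} : Finset (Fin (2 + 1))).filter (· < 1)).card = 1 := by decide
  have c2 : (({0, 1, 2} : Finset (Fin (2 + 1))).filter (· < 2)).card = 2 := by decide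
  rw [ADC.bd_single, one_smul, ADC.toZ_add, toZ_single_one, toZ_single_one, toZ_single_one]
  show (∑ x ∈ ({0, 1, 2} : Finset (Fin (2 + 1))), _) = _
  rw [Finset.sum_insert (by decide), Finset.sum_pair (by decide), dif_pos (by rw [he0]; simp),
    dif_pos (by rw [he1]; simp), dif_pos (by rw [he2]; simp)]
  simp only [c0, c1, c2, he0, he1, he2, pow_zero, pow_one, neg_one_sq, Finsupp.single_neg]
  abel

/-- The chains of the triangle. -/
def triX (k : ℕ) (e : Bool) : (simplexADC 2).B →₀ ℕ :=
  match k, e with
  | 0, false => Finsupp.single ⟨{0}, Finset.singleton_nonempty _⟩ 1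
  | 0, true => Finsupp.single ⟨{2}, Finset.singleton_nonempty _⟩ 1
  | 1, false => Finsupp.single ⟨{0, 2}, Finset.insert_nonempty _ _⟩ 1
  | 1, true => Finsupp.single ⟨{0, 1}, Finset.insert_nonempty _ _⟩ 1 +
      Finsupp.single ⟨{1, 2}, Finset.insert_nonempty _ _⟩ 1
  | 2, _ => Finsupp.single ⟨{0, 1, 2}, Finset.insert_nonempty _ _⟩ 1
  | _ + 3, _ => 0

theorem triX_deg (k : ℕ) (e : Bool) (t : (simplexADC 2).B) (ht : triX k e t ≠ 0) :
    (simplexADC 2).deg t = k := by
  unfold triX at ht
  split at ht
  · obtain ⟨rfl, -⟩ := Finsupp.single_apply_ne_zero.1 ht; rfl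
  · obtain ⟨rfl, -⟩ := Finsupp.single_apply_ne_zero.1 ht; rfl
  · obtain ⟨rfl, -⟩ := Finsupp.single_apply_ne_zero.1 ht; rfl
  · rw [Finsupp.add_apply] at ht
    by_cases h : (Finsupp.single (⟨{0, 1}, Finset.insert_nonempty _ _⟩ : (simplexADC 2).B) 1) t = 0
    · rw [h, zero_add] at ht
      obtain ⟨rfl, -⟩ := Finsupp.single_apply_ne_zero.1 ht; rfl
    · obtain ⟨rfl, -⟩ := Finsupp.single_apply_ne_zero.1 h; rfl
  · obtain ⟨rfl, -⟩ := Finsupp.single_apply_ne_zero.1 ht; rfl
  · simp at ht

theorem triX_boundary (k : ℕ) (e : Bool) : (simplexADC 2).bd (triX (k + 1) e) =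
    (simplexADC 2).toZ (triX k true) - (simplexADC 2).toZ (triX k false) :=
  match k, e with
  | 0, false => by
    simp only [triX]
    exact bd_pair (show (0 : Fin (2 + 1)) < 2 by decide)
  | 0, true => by
    simp only [triX]
    rw [ADC.bd_add, bd_pair (show (0 : Fin (2 + 1)) < 1 by decide),
      bd_pair (show (1 : Fin (2 + 1)) < 2 by decide)]
    abel
  | 1, _ => by
    simp only [triX]
    exact bd_triple
  | 2, _ => by simp [triX, ADC.bd_zero]
  | _ + 3, _ => by simp [triX, ADC.bd_zero, ADC.toZ]

/-- The triangle. -/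
def triangle : (simplexADC 2).Cell where
  x := triX
  deg_eq := triX_deg
  aug e := by cases e <;> simp [triX]
  boundary := triX_boundary
  bounded := ⟨2, fun k e hk => by
    obtain ⟨k, rfl⟩ : ∃ j, k = j + 3 := ⟨k - 3, by omega⟩
    rfl⟩

theorem triangle_s_one : ADC.Cell.face false 1 triangle =
    eCell (show (0 : Fin (2 + 1)) ≤ 2 by decide) := by
  refine ADC.Cell.ext fun k e => ?_
  rcases k with _ | _ | k
  · rw [eCell_x_zero]; cases e <;> rfl
  · rw [eCell_x_one (show (0 : Fin (2 + 1)) < 2 by decide)]; rfl
  · rw [eCell_x_high]; rfl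

theorem triangle_t_one : ADC.Cell.face true 1 triangle = (oriental 2).comp 0
    (eCell (show (0 : Fin (2 + 1)) ≤ 1 by decide))
    (eCell (show (1 : Fin (2 + 1)) ≤ 2 by decide)) := by
  refine ADC.Cell.ext fun k e => ?_
  refine Eq.trans ?_ (ADC.Cell.comp_x (ADC.Cell.composable_iff.2
    ⟨(eCell_x_zero _ true).trans (eCell_x_zero _ false).symm, fun k e hk => by omega⟩) k e).symm
  rcases k with _ | _ | k
  · cases e
    · exact (eCell_x_zero _ false).symm
    · exact (eCell_x_zero (show (1 : Fin (2 + 1)) ≤ 2 by decide) true).symm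
  · show _ = (eCell _).x 1 e + (eCell _).x 1 e
    rw [eCell_x_one (show (0 : Fin (2 + 1)) < 1 by decide),
      eCell_x_one (show (1 : Fin (2 + 1)) < 2 by decide)]
    rfl
  · show _ = (eCell _).x (k + 2) e + (eCell _).x (k + 2) e
    rw [eCell_x_high, eCell_x_high]
    rfl

/-- In a category the long edge of a triangle is the composite of the short ones. -/
theorem toFun_eCell_trans (G : Fun (oriental a) (ofCat C)) {i j k : Fin (a + 1)} (h : i ≤ j)
    (h' : j ≤ k) : G.toFun (eCell (h.trans h')) =
      (ofCat C).comp 0 (G.toFun (eCell h)) (G.toFun (eCell h')) := by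
  let θ : Fin (2 + 1) →o Fin (a + 1) :=
    ⟨![i, j, k], Fin.monotone_iff_le_succ.2 (by simp [Fin.forall_fin_two, h, h'])⟩
  have e := (toFun_s_one ((orientalMap θ).comp G) triangle).trans
    (toFun_t_one ((orientalMap θ).comp G) triangle).symm
  have hc : (oriental 2).t 0 (eCell (show (0 : Fin (2 + 1)) ≤ 1 by decide)) =
      (oriental 2).s 0 (eCell (show (1 : Fin (2 + 1)) ≤ 2 by decide)) :=
    (eCell_t_zero _).trans (eCell_s_zero _).symm
  rw [triangle_s_one, triangle_t_one, ((orientalMap θ).comp G).map_comp 0 _ _ hc] at e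
  simp only [Fun.comp, eCell_map] at e
  exact e

/-- The object of a vertex. -/
def objOf (G : Fun (oriental a) (ofCat C)) (i : Fin (a + 1)) : C :=
  Arr.src (G.toFun (vert i))

theorem toFun_vert (G : Fun (oriental a) (ofCat C)) (i : Fin (a + 1)) :
    G.toFun (vert i) = Arr.one (objOf G i) := by
  conv_lhs => rw [show vert i = (oriental a).s 0 (vert i) from (Cells.face_vert false 0 i).symm]
  rw [G.map_s]
  rfl

theorem src_edge (G : Fun (oriental a) (ofCat C)) {i j : Fin (a + 1)} (h : i ≤ j) :
    Arr.src (G.toFun (eCell h)) = objOf G i := by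
  have h' := G.map_s 0 (eCell h)
  rw [show (oriental a).s 0 (eCell h) = vert i from eCell_s_zero h] at h'
  exact (congrArg Arr.src h').symm

theorem tgt_edge (G : Fun (oriental a) (ofCat C)) {i j : Fin (a + 1)} (h : i ≤ j) :
    Arr.tgt (G.toFun (eCell h)) = objOf G j := by
  have h' := G.map_t 0 (eCell h)
  rw [show (oriental a).t 0 (eCell h) = vert j from eCell_t_zero h] at h'
  exact (congrArg Arr.src h').symm

/-- The arrow between named objects. -/
def castHom (p : Arr C) {x y : C} (hx : p.src = x) (hy : p.tgt = y) : x ⟶ y :=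
  eqToHom hx.symm ≫ p.hom ≫ eqToHom hy

theorem castHom_arr (p : Arr C) {x y : C} (hx : p.src = x) (hy : p.tgt = y) :
    (⟨x, y, castHom p hx hy⟩ : Arr C) = p := by
  subst hx
  subst hy
  simp [castHom]

theorem castHom_one {p : Arr C} {x : C} (h : p = Arr.one x) (hx : p.src = x) (hy : p.tgt = x) :
    castHom p hx hy = 𝟙 x := by
  subst h
  simp [castHom, Arr.one]
  rfl

theorem castHom_comp {p q r : Arr C} {x y z : C} (h : r = (ofCat C).comp 0 p q)
    (h1 : p.src = x) (h2 : p.tgt = y) (h3 : q.src = y) (h4 : q.tgt = z) (h5 : r.src = x)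
    (h6 : r.tgt = z) : castHom r h5 h6 = castHom p h1 h2 ≫ castHom q h3 h4 := by
  rw [ofCat_comp_zero (h2.trans h3.symm)] at h
  subst h
  subst h1
  subst h2
  subst h4
  simp [castHom]

/-- The sequence of arrows of a simplex. -/
def toSeq (G : Fun (oriental a) (ofCat C)) : Fin (a + 1) ⥤ C where
  obj := objOf G
  map h := castHom (G.toFun (eCell (leOfHom h))) (src_edge G _) (tgt_edge G _)
  map_id i := castHom_one ((congrArg G.toFun (eCell_self i)).trans (toFun_vert G i)) _ _
  map_comp f g := castHom_comp (toFun_eCell_trans G (leOfHom f) (leOfHom g)) _ _ _ _ _ _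

theorem ofSeq_eCell (F : Fin (a + 1) ⥤ C) {i j : Fin (a + 1)} (h : i ≤ j) :
    (ofSeq F).toFun (eCell h) = seqArr F h :=
  seqArr_congr F (sv_eq (eCell_s_zero h)) (tv_eq (eCell_t_zero h)) _ _

theorem ofSeq_toSeq (G : Fun (oriental a) (ofCat C)) : ofSeq (toSeq G) = G :=
  ext_edges _ _ fun i j h => by
    rw [ofSeq_eCell]
    exact castHom_arr _ (src_edge G h) (tgt_edge G h)

theorem ofSeq_injective : Function.Injective (ofSeq : (Fin (a + 1) ⥤ C) → _) := by
  intro F F' h
  have h' : ∀ (i j : Fin (a + 1)) (hij : i ≤ j), seqArr F hij = seqArr F' hij := fun _ _ hij => by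
    rw [← ofSeq_eCell, ← ofSeq_eCell, h]
  exact CategoryTheory.Functor.ext (fun i => congrArg Arr.src (h' _ _ (le_refl i)))
    fun i j f => Arr.hom_eq (h' i j (leOfHom f))

theorem ofSeq_bijective : Function.Bijective (ofSeq : (Fin (a + 1) ⥤ C) → _) :=
  ⟨ofSeq_injective, fun G => ⟨toSeq G, ofSeq_toSeq G⟩⟩

/-- The Street nerve of a category as a `1`-category is its ordinary nerve. -/
def nerveIso (C : Type u) [Category.{u} C] : nerve C ≅ (nerveN 1).obj (ofCat₁ C) :=
  NatIso.ofComponents (fun m => (Equiv.ofBijective _ (ofSeq_bijective (C := C) (a := m.unop.len))).toIso)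
    fun f => by
      refine ConcreteCategory.hom_ext _ _ fun F => ?_
      exact (ofSeq_natural F f.unop.toOrderHom).symm

/-- Naturality of the isomorphism in the category. -/
theorem nerveIso_natural {D : Type u} [Category.{u} D] (F : C ⥤ D) :
    nerveMap F ≫ (nerveIso D).hom =
      (nerveIso C).hom ≫ (nerveN 1).map (ObjectProperty.homMk (ofCatMap F)) := by
  ext m s
  exact Fun.ext fun p => rfl

/-- `N₁` is the ordinary nerve: every `1`-category has as Street nerve that of its category. -/
theorem nerve_one (X : NCat.{u} 1) : Nonempty ((nerveN 1).obj X ≅ nerve (Obj X)) :=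
  ⟨(nerveN 1).mapIso (isoOfCat X) ≪≫ (nerveIso (Obj X)).symm⟩

end

end Vale.Agent.P213.Check
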