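import Vale.Agent.P213.Steiner.Atom
import Vale.Agent.P213.Steiner.Simplex

/-!
# P213 audit: the oriental `O_m` is an `m`-category and not an `(m-1)`-category
-/

namespace Vale.Agent.P213.Check

noncomputable section

/-- Chains of an oriental vanish above the dimension of the simplex. -/
theorem oriental_x_eq_zero {m : ℕ} (p : (simplexADC m).Cell) {k : ℕ} (hk : m < k) (e : Bool) :
    p.x k e = 0 := by
  ext s
  by_contra hs
  have h : s.1.card - 1 = k := p.deg_eq k e s hs
  have h' : s.1.card ≤ m + 1 := by simpa using s.1.card_le_univ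
  omega

theorem oriental_s_self {m : ℕ} (p : (simplexADC m).Cell) {k : ℕ} (hk : m ≤ k)
    (h : ∀ e, p.x k e = p.x k false) : (oriental m).s k p = p := by
  refine ADC.Cell.ext fun j e => ?_
  show (ADC.Cell.face false k p).x j e = p.x j e
  rw [ADC.Cell.face_x]
  split_ifs with h1 h2
  · rfl
  · subst h2; exact (h e).symm
  · exact (oriental_x_eq_zero p (by omega) e).symm

/-- Orientals of the simplex of dimension `m` are `m`-categories. -/
theorem isNCat_oriental (m : ℕ) : IsNCat (m : ℕ∞) (oriental m) := by
  intro k hk p
  have hk' : m ≤ k := by exact_mod_cast hk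
  refine oriental_s_self p hk' fun e => ?_
  cases e
  · rfl
  rcases Nat.lt_or_eq_of_le hk' with h | rfl
  · rw [oriental_x_eq_zero p h, oriental_x_eq_zero p h]
  · have hb : (simplexADC m).bd (p.x (m + 1) false) = 0 := by
      rw [oriental_x_eq_zero p (Nat.lt_succ_self m), ADC.bd_zero]
    rw [p.boundary, sub_eq_zero] at hb
    exact Finsupp.mapRange_injective _ rfl Nat.cast_injective hb

/-- The top atom is not an identity: `O_(m+1)` is no `m`-category. -/
theorem not_isNCat_oriental (m : ℕ) : ¬ IsNCat (m : ℕ∞) (oriental (m + 1)) := by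
  intro h
  let top : (simplexADC (m + 1)).B := ⟨Finset.univ, Finset.univ_nonempty⟩
  obtain ⟨p, hp⟩ := atomCell _ (simplexGood (m + 1)) top
  have hdeg : (simplexADC (m + 1)).deg top = m + 1 := by
    show Finset.univ.card - 1 = m + 1
    simp
  have h1 : p.x (m + 1) false = Finsupp.single top 1 := by
    rw [hp]
    have := ADC.atomX_deg_self (K := simplexADC (m + 1)) top false
    rwa [hdeg] at this
  have h2 := congrArg (fun q : (simplexADC (m + 1)).Cell => q.x (m + 1) false) (h m le_rfl p)
  simp only [ADC.Cell.face_x] at h2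
  rw [if_neg (by omega), if_neg (by omega), h1] at h2
  exact one_ne_zero (Finsupp.single_eq_zero.1 h2.symm)

end

end Vale.Agent.P213.Check
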