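import Vale.Agent.P213.Spec

/-!
# P213 audit: not every map is a weak homotopy equivalence

The map from the empty simplicial set to the point is not one, since the empty set is Kan.
-/

namespace Vale.Agent.P213.Check

open CategoryTheory CategoryTheory.Limits HomotopicalAlgebra Simplicial Opposite
  SSet.modelCategoryQuillen

universe u

noncomputable section

/-- The empty simplicial set. -/
abbrev emptySSet : SSet.{u} := (Functor.const _).obj PEmpty

/-- The empty simplicial set is a Kan complex. -/
theorem kanComplex_empty : SSet.KanComplex emptySSet.{u} := by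
  rw [SSet.KanComplex, isFibrant_iff, SSet.modelCategoryQuillen.fibration_iff]
  intro A B i hi
  simp only [SSet.modelCategoryQuillen.J, MorphismProperty.iSup_iff] at hi
  obtain ⟨m, ⟨j⟩⟩ := hi
  refine ⟨fun {f g} _ => ?_⟩
  have hv : Nonempty (((SSet.horn.{u} (m + 1) j).toSSet).obj (op (SimplexCategory.mk 0))) := by
    obtain ⟨k, hk⟩ := exists_ne j
    exact ⟨⟨SSet.stdSimplex.obj₀Equiv.symm j, by
      rw [SSet.horn_obj]
      refine (ne_of_lt ?_ : _ ≠ Set.univ)
      refine lt_of_le_of_ne (Set.subset_univ _) fun h => ?_
      simp [Set.ext_iff] at h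
      exact hk ((h k).elim id fun e => e.symm.trans rfl)⟩⟩
  exact PEmpty.elim (f.app (op (SimplexCategory.mk 0)) hv.some)

/-- The inclusion of the empty set in the point is not a weak homotopy equivalence. -/
theorem not_weq_empty (f : emptySSet.{u} ⟶ (Δ[0] : SSet.{u})) : ¬ IsWeakHomotopyEquiv f := by
  intro h
  obtain ⟨b, -⟩ := (h _ kanComplex_empty).1 (𝟙 _)
  exact PEmpty.elim (b.app (op (SimplexCategory.mk 0)) (SSet.stdSimplex.obj₀Equiv.symm 0))

end

end Vale.Agent.P213.Check
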